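import Vale.Agent.P280B30.Rows
import Vale.Agent.P280M85.Mer

/-!
# P280R85: the row `REM`
-/

set_option linter.all false

open scoped Manifold ContDiff Topology
open Filter MvPolynomial Matrix Vale.Agent.P272.K Vale.Agent.P299G40 Vale.Agent.P300.Final
open Vale.Agent.P009.AV (aff)

noncomputable section

namespace Vale.Agent.P280A

open M85

theorem rem85 (tan : TAN) : REM := by
  intro K C S _ _ _ _ _ _ Θ hC hΘ h p m ⟨ℓ, j, P, Q, d, l0, ⟨w, hw, lw⟩, hj, hP, hQ, P0, Q0, fin⟩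
  have hi := hΘ.2.1
  have ea : ∀ z : PN K, ℓ ⬝ᵥ aff j z = ℓ ⬝ᵥ z.rep / z.rep j := fun z => by
    simp only [dotProduct, aff, Finset.sum_div, mul_div_assoc]
  have a : AnalyticAt ℂ (fun z => aff j (Θ ((chartAt (Cm 1) p).symm z))) (chartAt (Cm 1) p p) :=
    analyticAt_pi_iff.2 fun k => ((P299G50.aff_holo hi (atc p) hj).2 k).analyticAt
  let L : (Fin (K + 1) → ℂ) →L[ℂ] ℂ :=
    LinearMap.toContinuousLinearMap (dotProductBilin ℂ ℂ ℓ)
  have hL : ∀ y, L y = ℓ ⬝ᵥ y := fun _ => rfl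
  have t1 : OrdAt (fun x => ℓ ⬝ᵥ aff j (Θ x)) p 1 := by
    refine An.ord_one ((L.analyticAt _).fun_comp a) (by rw [ea, l0, zero_div]) fun b => lw ?_
    have d := (L.hasFDerivAt.comp _ a.differentiableAt.hasFDerivAt).fderiv
    erw [d] at b
    obtain ⟨κ, ξ, rfl⟩ := ((tan 1 K C S Θ hC hΘ _ p j (atc p) hj).1 w).1 hw
    have e : ξ = ξ 0 • fun _ => (1 : ℂ) := funext fun i => by
      rw [Subsingleton.elim i 0]
      simp
    have b' : ℓ ⬝ᵥ dAff Θ (chartAt (Cm 1) p) j p (fun _ => 1) = 0 := b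
    rw [e, map_smul, dotProduct_add, dotProduct_smul, dotProduct_smul, dotProduct_smul, l0, b']
    simp
  have nz : ∀ F : MvPolynomial (Fin (K + 1)) ℂ, F.IsHomogeneous d → eval (Θ p).rep F ≠ 0 →
      eval (aff j (Θ p)) F ≠ 0 := fun F hF h0 => by
    rw [P299G50.eval_aff hF]
    exact mul_ne_zero (pow_ne_zero _ (inv_ne_zero hj)) h0
  have v0 : OrdAt (fun x => eval (aff j (Θ x)) P / eval (aff j (Θ x)) Q) p 0 :=
    ⟨_, (P299G50.eval_holo hi (atc p) hj P).analyticAt.fun_div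
      (P299G50.eval_holo hi (atc p) hj Q).analyticAt
      (by rw [(atc p).left_inv]; exact nz Q hQ Q0), div_ne_zero (nz P hP P0) (nz Q hQ Q0),
      Eventually.of_forall fun x => by rw [zpow_zero, mul_one]⟩
  have o := ord_div v0 t1 (-m)
  rw [one_mul, zero_sub, neg_neg] at o
  refine ord_congr o ?_
  have f2 := ((fin.preimage hΘ.1.injOn).subset (Set.diff_subset (t := {p}))).isClosed.isOpen_compl
  filter_upwards [nhdsWithin_le_nhds (f2.mem_nhds fun b => b.2 rfl), self_mem_nhdsWithin,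
    nhdsWithin_le_nhds (ev_rep hi hj)] with x x1 x2 x3
  have x4 : h (Θ x) = (ℓ ⬝ᵥ (Θ x).rep / (Θ x).rep j) ^ m *
      (eval (Θ x).rep P / eval (Θ x).rep Q) := by
    by_contra b
    exact x1 ⟨⟨hΘ.2.2 ▸ Set.mem_range_self x, b⟩, x2⟩
  rw [x4, P299G50.eval_aff hP, P299G50.eval_aff hQ,
    mul_div_mul_left _ _ (pow_ne_zero _ (inv_ne_zero x3)), ea, _root_.zpow_neg, div_inv_eq_mul, mul_comm]

end Vale.Agent.P280A

end
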